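import Crest.Agent.X262.DivB81.Ctr
import Crest.Agent.X262.R1.Loc
import Crest.Agent.X262.Sark27.Term
import Crest.Agent.X277.Unf.Main

/-!
# Row 262, BND (helper81): the witness of a contracted divisor is the local ring of the target

* `LocP H V a` : `a` is principal at the centre of `V` on the `H`-model;
* `divB_of : PGStmt → LiveStmt → RCStmt → Car2Stmt → J1Stmt → DivBStmt`.
-/

set_option autoImplicit false

open scoped KaehlerDifferential

noncomputable section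

namespace Crest.Agent.X262.DivB

open Crest.Agent.X277 Crest.Agent.X277.Lef Crest.Agent.X277.BD Crest.Agent.X277.Pst
open Crest.Agent.X277.BD.Br (On oP kP)
open Crest.Agent.X262.Mod Crest.Agent.X262.Bnd Crest.Agent.X262.Sark
open Crest.Agent.X262.Geo (od)

variable {K : Type} [Field K] [Algebra ℂ K] {H H' a b : BD ℂ K} {V W : RZ ℂ K}

/-- `a` is principal at the centre of `V` on the `H`-model -/
def LocP (H : BD ℂ K) (V : RZ ℂ K) (a : BD ℂ K) : Prop :=
  ∃ g : K, g ≠ 0 ∧ ∀ W, Gz H V W → W.v g = a.val W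

theorem locP_of_car (hH : H.Free) (h : Car H a) (V : RZ ℂ K) : LocP H V a := h.exists_gen hH V

theorem LocP.mono (hH : H.Free) (hH' : H'.Free) (h : LocP H V a) (hl : loc H V ≤ loc H' V) :
    LocP H' V a :=
  h.imp fun _ h => ⟨h.1, fun W hW => h.2 W (gz_of_loc hH fun x hx => (gz_iff hH').1 hW x (hl hx))⟩

theorem LocP.sub (ha : LocP H V a) (hb : LocP H V b) : LocP H V (a - b) := by
  obtain ⟨g, h1, h2⟩ := ha
  obtain ⟨g', h3, h4⟩ := hb
  exact ⟨g / g', div_ne_zero h1 h3, fun W hW => by rw [map_div₀, h2 W hW, h4 W hW, val_sub]⟩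

theorem LocP.neg (ha : LocP H V a) : LocP H V (-a) := by
  obtain ⟨g, h1, h2⟩ := ha
  exact ⟨g⁻¹, inv_ne_zero h1, fun W hW => by rw [map_inv₀, h2 W hW, val_neg]⟩

variable [Algebra.EssFiniteType ℂ K]

/-- a locally principal effective divisor which misses the centre misses every generisation -/
theorem LocP.eff (hH : IsMod H) (ha : LocP H V a)
    (h : ∀ W, Prm H W → Gz H V W → 1 ≤ a.val W) :
    1 ≤ a.val V ∧ (a.val V ≤ 1 → ∀ W, Gz H V W → a.val W = 1) := by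
  obtain ⟨g, h1, h2⟩ := ha
  have h3 : g⁻¹ ∈ loc H V := R1.mem_loc_of_prm hH fun W hW hG => RZ.le_one_iff.1 (by
    rw [map_inv₀, inv_le_one₀ (RZ.pos h1), h2 W hG]
    exact h W hW hG)
  have h4 := RZ.le_one_iff.2 (mem_of_loc h3)
  rw [map_inv₀, inv_le_one₀ (RZ.pos h1), h2 V Gz.rfl] at h4
  refine ⟨h4, fun h5 W hW => ?_⟩
  have h6 := hW.unit h3 (by rw [map_inv₀, h2 V Gz.rfl, h5.antisymm h4, inv_one])
  rwa [map_inv₀, inv_eq_one, h2 W hW] at h6

theorem LocP.val_eq_one (hH : IsMod H) (ha : LocP H V a)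
    (h : ∀ W, Prm H W → Gz H V W → a.val W = 1) : a.val V = 1 := by
  have h1 := (ha.neg.eff hH fun W h1 h2 => by rw [val_neg, h W h1 h2, inv_one]).1
  rw [val_neg, one_le_inv₀ (val_pos _ _)] at h1
  exact h1.antisymm (ha.eff hH fun W h1 h2 => (h W h1 h2).ge).1

theorem exists_prm_oP (hV : Dvs V) : ∃ W : PModel ℂ K, Prm (oP W) V := by
  obtain ⟨c, -, h⟩ := Geo.exists_prm hV
  obtain ⟨W, hW⟩ := Unf.exists_on {c}
  exact ⟨W, (Sark27.car_of_on (hW c (by simp))).prm h⟩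

variable {n : ℕ} {c : Bs n K} {P : PModel ℂ K}

theorem od_κ_eq (Y : TM c) (hP : Prm (oP P) V) (hV : Prm Y.H V) :
    od V Y.κ = Y.r * od V (kP P c) := by
  rw [(Geo.od_eq_iff hV.dvs).2 (Y.κ_eq P V hP hV), map_nsmul, nsmul_eq_mul]

theorem od_κ_lt (Y : TM c) (hP : Prm (oP P) V) (hV : ¬ Prm Y.H V) :
    od V Y.κ < Y.r * od V (kP P c) := by
  rw [← nsmul_eq_mul, ← map_nsmul]
  exact (Geo.od_lt_iff hP.dvs).2 (Y.κ_lt P V hP hV)

/-- if all primes of `U` through the centre of `V` are primes of the `ℚ`-factorial model `Y`, the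
local rings agree -/
theorem loc_ge (Y : TM c) (hH : IsMod H) (h1 : loc Y.H V ≤ loc H V)
    (h : ∀ D, Prm H D → Gz H V D → Prm Y.H D) : loc H V ≤ loc Y.H V := by
  obtain ⟨m, hm, a, h2, h3⟩ := Y.qf H
  have h4 := (((locP_of_car Y.mod.free h2 V).mono Y.mod.free hH.free h1).sub
    (locP_of_car hH.free ((car_self hH.free).nsmul m) V)).val_eq_one hH fun D h4 h5 => by
      rw [val_sub, h3 D (h D h4 h5), div_self (val_ne _ _)]
  rw [val_sub, div_eq_one_iff_eq (val_ne _ _)] at h4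
  exact (loc_le_nsmul hH.free hm V).trans
    (loc_le_of_eq h2 (h2.le_of_free Y.mod (hH.free.nsmul m) h3.ge) h4.symm)

/-- **DIV-B** -/
theorem divB_of (hP : PGStmt) (hL : LiveStmt) (hR : RCStmt) (hC : Car2Stmt) (hJ : J1Stmt) :
    DivBStmt := by
  intro K _ _ _ b U Z Y E hE hW hd
  have hZ : Prm Z.H E := (hE.prm E).2 (Or.inr rfl)
  have h1 : loc Y.H E ≤ loc U.H E :=
    hL K U.H Y.H E U.mod Y.mod.free (by rw [hW.1.dim, dim_of_bs b]) fun W h1 h2 x hx =>
      mem_cl.2 (hR K b Y W _ h1 (hW.2 W h1 h2) (srf_congr hP hZ.dvs h1 h2.symm hW.1) x hx)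
  refine h1.antisymm (loc_ge Y U.mod h1 fun D hD hG => by_contra fun hn => ?_)
  have hU : (0 : ℤ) < U.r := Int.natCast_pos.2 U.r_pos
  have hY : (0 : ℤ) < Y.r := Int.natCast_pos.2 Y.r_pos
  have hZ' : (0 : ℤ) < Z.r := Int.natCast_pos.2 Z.r_pos
  have key : ∀ D, Prm U.H D → 0 ≤ od D (Y.r • U.κ - U.r • Y.κ) ∧
      (¬ Prm Y.H D → 0 < od D (Y.r • U.κ - U.r • Y.κ)) := fun D hD => by
    obtain ⟨P, h2⟩ := exists_prm_oP hD.dvs
    rw [map_sub, map_nsmul, map_nsmul, nsmul_eq_mul, nsmul_eq_mul, od_κ_eq U h2 hD]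
    have h3 : ¬ Prm Y.H D → 0 < Y.r * (U.r * od D (kP P b)) - U.r * od D Y.κ := fun h3 => by
      nlinarith [od_κ_lt Y h2 h3]
    refine ⟨?_, h3⟩
    by_cases h4 : Prm Y.H D
    · rw [od_κ_eq Y h2 h4]
      linarith
    · exact (h3 h4).le
  have h2 : od E (Y.r • U.κ - U.r • Y.κ) ≤ od E 0 := by
    obtain ⟨P, h2⟩ := exists_prm_oP hZ.dvs
    have h3 := hC K b U P E h2 hW.1.dim
    have h4 := (hJ K b Z Y E hE hd).2.2
    simp only [map_sub, map_nsmul, nsmul_eq_mul, od_κ_eq Z h2 hZ, map_zero] at h3 h4 ⊢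
    have h5 : od E Y.κ = Y.r * (od E (kP P b) - 1) := by
      refine mul_left_cancel₀ hZ'.ne' ?_
      push_cast at h4
      linarith
    rw [h5]
    nlinarith
  have h3 := (((locP_of_car U.mod.free (U.car.nsmul Y.r) E).sub
    ((locP_of_car Y.mod.free (Y.car.nsmul U.r) E).mono Y.mod.free U.mod.free h1)).eff U.mod
    fun W h3 _ => by
      have h4 := (Geo.od_le_iff h3.dvs).1 ((map_zero (od W)).le.trans (key W h3).1)
      rwa [val_zero] at h4).2 (by simpa using (Geo.od_le_iff hZ.dvs).1 h2) D hG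
  exact ((key D hD).2 hn).ne' ((Geo.od_eq_zero hD.dvs).2 h3)

end Crest.Agent.X262.DivB
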